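import Vale.Agent.P103.Bdl.B2

/-!
# P103: fine description of the orbits of the counterexample
-/

namespace Vale.Agent.P103.H162

open Filter Topology

variable (P : Par)

/-- super-exponential smallness before capture -/
theorem fast_small (C : ℝ) : ∃ (D c : ℝ), 1 ≤ D ∧ 0 < c ∧ ∃ n₀ : ℕ,
    ∀ (ζ : Circle) (y : ℕ → ℝ) (n : ℕ), (∀ j, 0 ≤ y j) →
    (∀ j < n, y (j + 1) ≤ C * P.A (P.ω ^ j * ζ)) →
    (∀ j, 1 ≤ j → j < n → y (j + 1) ≤ C * y j) →
    n₀ ≤ n → y n ≤ D ^ n * Real.exp (-(c * ((n : ℝ) - 1) ^ 2)) := by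
  have hK := GR.K_ge_40 P
  have hH := P.nt.one_le
  have hH0 : 0 < P.H := by linarith only [hH]
  obtain ⟨D, hDC, hD1⟩ : ∃ D : ℝ, C ≤ D ∧ 1 ≤ D := ⟨max C 1, le_max_left _ _, le_max_right _ _⟩
  have hD0 : 0 < D := by linarith only [hD1]
  obtain ⟨n₀, hn₀⟩ := exists_nat_ge (P.H / 2 + 1)
  have hK0 : 0 < P.K := by linarith only [hK]
  refine ⟨D, P.K * (2 / P.H) ^ 2, hD1, by positivity, n₀, ?_⟩
  intro ζ y n hy h1 h2 hn
  have hn1 : P.H / 2 + 1 ≤ (n : ℝ) := hn₀.trans (by exact_mod_cast hn)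
  obtain ⟨s, hs⟩ : ∃ s : ℝ, s = 2 / P.H * ((n : ℝ) - 1) := ⟨_, rfl⟩
  have hs1 : 1 ≤ s := by
    rw [hs, div_mul_eq_mul_div, le_div_iff₀ hH0]
    linarith only [hn1]
  have hs0 : 0 < s := by linarith only [hs1]
  obtain ⟨t, ht1, ht2, ht3⟩ := P.nt.visit ζ (2 / s) (by positivity) (by
    rw [div_le_iff₀ hs0]; linarith only [hs1])
  have ht4 : (t : ℝ) ≤ (n : ℝ) - 1 := by
    rw [mul_div_assoc', div_le_iff₀ hs0, hs] at ht2
    have h3 : P.H * (2 / P.H * ((n : ℝ) - 1)) = 2 * ((n : ℝ) - 1) := by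
      field_simp
    rw [h3] at ht2
    linarith only [ht2]
  have hi : t < n := by
    have h3 : (t : ℝ) < n := by linarith only [ht4]
    exact_mod_cast h3
  have hnu : nu (P.ω ^ t * ζ) ≤ 1 / s ^ 2 := by
    unfold nu
    have h3 : ‖((P.ω ^ t * ζ : Circle) : ℂ) - 1‖ ^ 2 ≤ (2 / s) ^ 2 :=
      pow_le_pow_left₀ (norm_nonneg _) ht3 2
    have h4 : (2 / s) ^ 2 = 4 * (1 / s ^ 2) := by field_simp; norm_num
    rw [h4] at h3
    linarith only [h3]
  have hA : P.A (P.ω ^ t * ζ) ≤ Real.exp (-(P.K * s ^ 2)) := by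
    unfold Par.A
    rcases le_or_gt (nu (P.ω ^ t * ζ) / P.K) 0 with h3 | h3
    · rw [expNegInvGlue.zero_of_nonpos h3]
      exact (Real.exp_pos _).le
    · unfold expNegInvGlue
      rw [if_neg (not_le.2 h3)]
      apply Real.exp_le_exp.2
      have h4 : nu (P.ω ^ t * ζ) / P.K ≤ (P.K * s ^ 2)⁻¹ := by
        rw [div_le_iff₀ (by linarith only [hK])]
        refine hnu.trans (le_of_eq ?_)
        have : P.K ≠ 0 := by linarith only [hK]
        field_simp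
      have h5 : P.K * s ^ 2 ≤ (nu (P.ω ^ t * ζ) / P.K)⁻¹ := by
        rw [le_inv_comm₀ (by positivity) h3]
        exact h4
      linarith only [h5]
  have hA0 : 0 ≤ P.A (P.ω ^ t * ζ) := expNegInvGlue.nonneg _
  have h3 : y (t + 1) ≤ D * Real.exp (-(P.K * s ^ 2)) := by
    calc y (t + 1) ≤ C * P.A (P.ω ^ t * ζ) := h1 _ hi
      _ ≤ D * P.A (P.ω ^ t * ζ) := mul_le_mul_of_nonneg_right hDC hA0
      _ ≤ _ := mul_le_mul_of_nonneg_left hA hD0.le
  have h4 : ∀ k, t + 1 + k ≤ n → y (t + 1 + k) ≤ D ^ k * y (t + 1) := by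
    intro k
    induction k with
    | zero => intro _; simp
    | succ k ih =>
      intro hk
      have h5 := ih (by omega)
      have h6 := h2 (t + 1 + k) (by omega) (by omega)
      calc y (t + 1 + (k + 1)) ≤ C * y (t + 1 + k) := h6
        _ ≤ D * y (t + 1 + k) := mul_le_mul_of_nonneg_right hDC (hy _)
        _ ≤ D * (D ^ k * y (t + 1)) := mul_le_mul_of_nonneg_left h5 hD0.le
        _ = D ^ (k + 1) * y (t + 1) := by ring
  obtain ⟨k, hk⟩ : ∃ k, t + 1 + k = n := ⟨n - (t + 1), by omega⟩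
  have h5 := h4 k hk.le
  rw [hk] at h5
  have hE : P.K * (2 / P.H) ^ 2 * ((n : ℝ) - 1) ^ 2 = P.K * s ^ 2 := by
    rw [hs]; ring
  rw [hE]
  calc y n ≤ D ^ k * y (t + 1) := h5
    _ ≤ D ^ k * (D * Real.exp (-(P.K * s ^ 2))) :=
        mul_le_mul_of_nonneg_left h3 (by positivity)
    _ = D ^ (k + 1) * Real.exp (-(P.K * s ^ 2)) := by ring
    _ ≤ D ^ n * Real.exp (-(P.K * s ^ 2)) := by
        apply mul_le_mul_of_nonneg_right _ (Real.exp_pos _).le
        exact pow_le_pow_right₀ hD1 (by omega)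

/-- local coordinate of the next point -/
noncomputable def YY (x : Circle × (Sph ℂ × Sph P.V)) (j : ℕ) : P.V :=
  P.G (P.ω ^ j * x.1) (P.fM^[j] x).2.1 (P.fM^[j] x).2.2

/-- at time `m+1` the orbit is at infinity or captured -/
def QQ (x : Circle × (Sph ℂ × Sph P.V)) (m : ℕ) : Prop :=
  (P.fM^[m + 1] x).2 = (nor, sou) ∨
    ∃ b : ℝ, 0 < b ∧ ∃ u : ℂ, ‖u‖ = 1 ∧
      (P.fM^[m + 1] x).2 = P.sta (P.e (P.ω ^ (m + 1) * x.1) b u)

theorem before_capture : ∃ C : ℝ, 0 < C ∧ ∀ (x : Circle × (Sph ℂ × Sph P.V)) (k : ℕ),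
    (∀ i ≤ k, ¬ QQ P x i) → (P.fM^[k + 1] x).2 = P.sta (YY P x k) ∧
      (∀ j ≤ k, ‖YY P x j‖ ≤ C * P.A (P.ω ^ j * x.1)) ∧
      ∀ j < k, ‖YY P x (j + 1)‖ ≤ C * ‖YY P x j‖ := by
  obtain ⟨C, hC, hF, hW, hFn⟩ := P.excHyp.C
  refine ⟨2 * C, by positivity, fun y k hm => ?_⟩
  have hY : ∀ j, (P.fM^[j + 1] y).2 = (nor, sou) ∨ (P.fM^[j + 1] y).2 = P.sta (YY P y j) := by
    intro j
    rw [P.exc_fM_snd]
    by_cases h : ht (P.fM^[j] y).2.1 < -(3 / 4)
    · right; exact P.exc_fib_in _ _ _ h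
    · left; exact P.exc_fib_out _ _ _ h
  have hcap : ∀ j, (∃ b : ℝ, 0 < b ∧ ∃ u : ℂ, ‖u‖ = 1 ∧
      YY P y j = P.e (P.ω ^ (j + 1) * y.1) b u) ∨ ‖YY P y j‖ ≤ C * P.A (P.ω ^ j * y.1) := by
    intro j
    change (∃ b : ℝ, 0 < b ∧ ∃ u : ℂ, ‖u‖ = 1 ∧ P.G _ _ _ = _) ∨ ‖P.G _ _ _‖ ≤ _
    rw [pow_succ', mul_assoc]
    unfold Par.G
    split_ifs
    · exact hW _ _
    · exact hF _ _ _
  have hnext : ∀ j, (P.fM^[j + 1] y).2 = P.sta (YY P y j) →
      (P.fM^[j + 2] y).2 = (nor, sou) ∨ ‖YY P y (j + 1)‖ ≤ 2 * C * ‖YY P y j‖ := by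
    intro j hj
    rw [P.exc_fM_snd, hj]
    by_cases h : ht (P.sta (YY P y j)).1 < -(3 / 4)
    · right
      have h1 : ‖YY P y j 0‖ < 1 / 2 := exc_norm_lt_of_ht h
      change ‖P.G _ (P.fM^[j + 1] y).2.1 (P.fM^[j + 1] y).2.2‖ ≤ _
      rw [hj, P.exc_G_sta _ (by linarith only [h1])]
      refine (hFn _ _ _).trans ?_
      have a1 := P.exc_coord_le (YY P y j) 0
      have a2 := P.exc_hat_norm_le (YY P y j)
      nlinarith only [hC, a1, a2]
    · left; exact P.exc_fib_out _ _ _ h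
  have hsta : ∀ i ≤ k, (P.fM^[i + 1] y).2 = P.sta (YY P y i) := by
    intro i hi
    rcases hY i with h | h
    · exact absurd (Or.inl h) (hm i hi)
    · exact h
  refine ⟨hsta k le_rfl, fun j hj => ?_, fun j hj => ?_⟩
  · have hA : 0 ≤ P.A (P.ω ^ j * y.1) := expNegInvGlue.nonneg _
    rcases hcap j with ⟨b, hb, u, hu, h⟩ | h
    · refine absurd (Or.inr ⟨b, hb, u, hu, ?_⟩) (hm j hj)
      rw [← h]
      exact hsta j hj
    · nlinarith only [h, hC, hA]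
  · rcases hnext j (hsta j hj.le) with h | h
    · exact absurd (Or.inl h) (hm (j + 1) hj)
    · exact h

/-- a captured point is close to the zero section or lands after a bounded time -/
theorem captured_dichotomy {η : ℝ} (hη : 0 < η) (hη1 : η ≤ 1) :
    ∃ T : ℕ, ∀ (ζ : Circle) (b : ℝ) (u : ℂ), 0 < b → ‖u‖ = 1 → ∀ j : ℕ,
      (P.fM^[j] (ζ, P.sta (P.e ζ b u))).2 ∈ P.exU η ∨
        (P.fM^[j + T] (ζ, P.sta (P.e ζ b u))).2 = (nor, sou) := by
  have H := P.excHyp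
  obtain ⟨T, hT⟩ := H.escape (η / 2) (half_pos hη)
  refine ⟨T + 1, fun ζ b u hb hu j => ?_⟩
  rcases lt_or_ge (P.exA ζ b j) (η / 2) with hj | hj
  · rcases P.exc_captured H ζ hb hu j with h | h
    · right
      exact P.exc_inf _ h _
    · left
      rw [h]
      apply P.exc_sta_mem hη1
      have hu2 : ‖u ^ 2 ^ j‖ = 1 := by rw [norm_pow, hu, one_pow]
      have := H.e_norm_le (P.ω ^ j * ζ) _ (P.exA_pos H ζ hb j) _ hu2
      linarith only [hj, this]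
  · right
    obtain ⟨i, hi, h1⟩ := hT (P.ω ^ j * ζ) (fun i => P.exA ζ b (j + i)) (by
      intro i
      change P.exA ζ b (j + i + 1) = _
      rw [← mul_assoc, ← pow_add, add_comm i j]
      rfl) hj
    have h2 := P.exc_captured_big H ζ hb hu (j + i) h1 (T - i)
    have h3 : j + i + 1 + (T - i) = j + (T + 1) := by omega
    rw [h3] at h2
    exact h2

/-- captured points land -/
theorem lands_of_QQ {x : Circle × (Sph ℂ × Sph P.V)} {m : ℕ} (h : QQ P x m) :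
    ∃ n, (P.fM^[n] x).2 = (nor, sou) := by
  have H := P.excHyp
  rcases h with h | ⟨b, hb, u, hu, h⟩
  · exact ⟨_, h⟩
  · obtain ⟨T, hT⟩ := H.escape b hb
    obtain ⟨i, -, h1⟩ := hT (P.ω ^ (m + 1) * x.1) (fun i => P.exA (P.ω ^ (m + 1) * x.1) b i)
      (fun i => rfl) le_rfl
    refine ⟨i + 1 + 0 + (m + 1), ?_⟩
    have heq : P.fM^[i + 1 + 0 + (m + 1)] x =
        P.fM^[i + 1 + 0] (P.ω ^ (m + 1) * x.1, P.sta (P.e (P.ω ^ (m + 1) * x.1) b u)) := by
      rw [Function.iterate_add_apply]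
      congr 1
      exact Prod.ext (P.exc_fM_fst x (m + 1)) h
    rw [heq]
    exact P.exc_captured_big H _ hb hu i h1 0

/-- every orbit: a bounded time, then close to the zero section, then, after another bounded time,
at infinity -/
theorem orbit_dichotomy {η : ℝ} (hη : 0 < η) (hη1 : η ≤ 1) :
    ∃ T : ℕ, ∀ (x : Circle × (Sph ℂ × Sph P.V)) (n : ℕ), T ≤ n →
      (P.fM^[n] x).2 ∈ P.exU η ∨ (P.fM^[n + T] x).2 = (nor, sou) := by
  have H := P.excHyp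
  obtain ⟨C, hC, hbc⟩ := before_capture P
  obtain ⟨T1, hT1⟩ := H.small C η hη
  obtain ⟨T2, hT2⟩ := captured_dichotomy P hη hη1
  refine ⟨T1 + 1 + T2, fun x n hn => ?_⟩
  by_cases hex : ∃ m, m + 1 ≤ n ∧ QQ P x m
  · obtain ⟨m, hmn, hm⟩ := hex
    obtain ⟨k, rfl⟩ : ∃ k, n = k + (m + 1) := ⟨n - (m + 1), by omega⟩
    rcases hm with hm | ⟨b, hb, u, hu, hm⟩
    · right
      have h1 := P.exc_inf x hm (k + (T1 + 1 + T2))
      have h2 : m + 1 + (k + (T1 + 1 + T2)) = k + (m + 1) + (T1 + 1 + T2) := by omega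
      rw [h2] at h1
      exact h1
    · have heq : ∀ i, P.fM^[i + (m + 1)] x =
          P.fM^[i] (P.ω ^ (m + 1) * x.1, P.sta (P.e (P.ω ^ (m + 1) * x.1) b u)) := by
        intro i
        rw [Function.iterate_add_apply]
        congr 1
        exact Prod.ext (P.exc_fM_fst x (m + 1)) hm
      rcases hT2 (P.ω ^ (m + 1) * x.1) b u hb hu k with h | h
      · left
        rw [heq]
        exact h
      · right
        rw [← heq] at h
        have h1 := P.exc_inf x h (T1 + 1)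
        have h2 : k + T2 + (m + 1) + (T1 + 1) = k + (m + 1) + (T1 + 1 + T2) := by omega
        rw [h2] at h1
        exact h1
  · push Not at hex
    left
    obtain ⟨k, rfl⟩ : ∃ k, n = k + 1 := ⟨n - 1, by omega⟩
    obtain ⟨h1, h2, h3⟩ := hbc x k (fun i hi => hex i (by omega))
    rw [h1]
    apply P.exc_sta_mem hη1
    refine hT1 x.1 (fun j => Nat.casesOn j 0 (fun i => ‖YY P x i‖)) (k + 1) ?_ ?_ ?_ (by omega)
    · intro j
      cases j with
      | zero => exact le_refl _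
      | succ j => exact norm_nonneg _
    · intro j hj
      exact h2 j (by omega)
    · intro j h4 hj
      obtain ⟨i, rfl⟩ : ∃ i, j = i + 1 := ⟨j - 1, by omega⟩
      exact h3 i (by omega)

theorem dist_ist_sou {V : Type} [NormedAddCommGroup V] [InnerProductSpace ℝ V] (v : V) :
    dist (ist v : Sph V) sou ≤ 2 * ‖v‖ := by
  have h1 : (1 + ‖v‖ ^ 2) ≠ 0 := by positivity
  rw [Subtype.dist_eq, dist_eq_norm, WithLp.prod_norm_eq_of_L2]
  apply Real.sqrt_le_iff.mpr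
  refine ⟨by positivity, ?_⟩
  have h2 : ((ist v : Sph V) : WithLp 2 (V × ℝ)).fst - (sou : Sph V).1.fst =
      (2 / (1 + ‖v‖ ^ 2)) • v := by
    change (2 / (1 + ‖v‖ ^ 2)) • v - 0 = _
    rw [sub_zero]
  have h3 : ((ist v : Sph V) : WithLp 2 (V × ℝ)).snd - (sou : Sph V).1.snd =
      (‖v‖ ^ 2 - 1) / (1 + ‖v‖ ^ 2) + 1 := by
    change (‖v‖ ^ 2 - 1) / (1 + ‖v‖ ^ 2) - (-1) = _
    ring
  change ‖((ist v : Sph V) : WithLp 2 (V × ℝ)).fst - (sou : Sph V).1.fst‖ ^ 2 +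
    ‖((ist v : Sph V) : WithLp 2 (V × ℝ)).snd - (sou : Sph V).1.snd‖ ^ 2 ≤ _
  rw [h2, h3, norm_smul, mul_pow, Real.norm_eq_abs, Real.norm_eq_abs, sq_abs, sq_abs]
  have h4 : (2 / (1 + ‖v‖ ^ 2)) ^ 2 * ‖v‖ ^ 2 + ((‖v‖ ^ 2 - 1) / (1 + ‖v‖ ^ 2) + 1) ^ 2 =
      4 * ‖v‖ ^ 2 / (1 + ‖v‖ ^ 2) := by
    field_simp
    ring
  rw [h4, div_le_iff₀ (by positivity)]
  have h5 : 0 ≤ ‖v‖ ^ 2 := by positivity
  nlinarith

theorem dist_sta_le (Y : P.V) : dist (P.sta Y) (sou, sou) ≤ 2 * ‖Y‖ := by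
  have h0 := P.exc_coord_le Y 0
  rw [Prod.dist_eq]
  apply max_le
  · rcases le_or_gt ‖Y 0‖ 1 with h | h
    · change dist (E2 (Y 0)) sou ≤ _
      rw [exc_E2_eq_ist h]
      refine (dist_ist_sou _).trans ?_
      linarith
    · have h1 : dist (P.sta Y).1 (sou : Sph ℂ) ≤ 2 := by
        rw [Subtype.dist_eq]
        have h2 := mem_sphere_zero_iff_norm.mp (P.sta Y).1.2
        have h3 := mem_sphere_zero_iff_norm.mp (sou : Sph ℂ).2
        have h4 := dist_le_norm_add_norm ((P.sta Y).1 : WithLp 2 (ℂ × ℝ)) (sou : Sph ℂ).1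
        rw [h2, h3] at h4
        linarith
      linarith
  · change dist (ist (P.hat Y)) sou ≤ _
    refine (dist_ist_sou _).trans ?_
    have := P.exc_hat_norm_le Y
    linarith

/-- super-exponential convergence of the orbits that do not land -/
theorem fast {ρ : ℝ} (hρ : 0 < ρ) : ∃ K : ℝ, ∀ x : Circle × (Sph ℂ × Sph P.V),
    (∀ n, (P.fM^[n] x).2 ≠ (nor, sou)) → ∀ n, dist (P.fM^[n] x).2 (sou, sou) ≤ K * ρ ^ n := by
  obtain ⟨C, hC, hbc⟩ := before_capture P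
  obtain ⟨D, c, hD, hc, n₀, hfast⟩ := fast_small P C
  have hD0 : 0 < D := by linarith
  -- a bound for all later times
  obtain ⟨K1, hK10, hK1⟩ : ∃ K1 : ℝ, 0 ≤ K1 ∧ ∀ n : ℕ,
      D ^ n * Real.exp (-(c * ((n : ℝ) - 1) ^ 2)) ≤ K1 * ρ ^ n := by
    set a := Real.log (D / ρ) with ha
    have hDρ : 0 < D / ρ := by positivity
    refine ⟨Real.exp (a + a ^ 2 / (4 * c)), (Real.exp_pos _).le, fun n => ?_⟩
    have h1 : D ^ n = Real.exp (n * a) * ρ ^ n := by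
      rw [ha, Real.exp_nat_mul, Real.exp_log hDρ, div_pow]
      field_simp
    rw [h1, mul_right_comm, ← Real.exp_add]
    apply mul_le_mul_of_nonneg_right _ (by positivity)
    apply Real.exp_le_exp.mpr
    have h2 : 0 ≤ (2 * c * ((n : ℝ) - 1) - a) ^ 2 / (4 * c) := by positivity
    have h3 : (2 * c * ((n : ℝ) - 1) - a) ^ 2 / (4 * c) =
        c * ((n : ℝ) - 1) ^ 2 - a * ((n : ℝ) - 1) + a ^ 2 / (4 * c) := by
      field_simp
      ring
    rw [h3] at h2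
    linarith
  obtain ⟨K2, hK20, hK2⟩ : ∃ K2 : ℝ, 0 ≤ K2 ∧ ∀ n < n₀ + 1, 2 ≤ K2 * ρ ^ n := by
    refine ⟨∑ n ∈ Finset.range (n₀ + 1), 2 / ρ ^ n, Finset.sum_nonneg fun n _ => by positivity,
      fun n hn => ?_⟩
    have h1 : 2 / ρ ^ n ≤ ∑ n ∈ Finset.range (n₀ + 1), 2 / ρ ^ n :=
      Finset.single_le_sum (f := fun n : ℕ => 2 / ρ ^ n) (fun i _ => by positivity)
        (Finset.mem_range.mpr hn)
    have h2 : 2 / ρ ^ n * ρ ^ n ≤ (∑ n ∈ Finset.range (n₀ + 1), 2 / ρ ^ n) * ρ ^ n :=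
      mul_le_mul_of_nonneg_right h1 (by positivity)
    rwa [div_mul_cancel₀ _ (by positivity)] at h2
  have hdiam : ∀ a b : Sph ℂ × Sph P.V, dist a b ≤ 2 := by
    have hs : ∀ {V : Type} [NormedAddCommGroup V] [InnerProductSpace ℝ V] (a b : Sph V),
        dist a b ≤ 2 := by
      intro V _ _ a b
      rw [Subtype.dist_eq]
      have h2 := mem_sphere_zero_iff_norm.mp a.2
      have h3 := mem_sphere_zero_iff_norm.mp b.2
      have h4 := dist_le_norm_add_norm (a : WithLp 2 (V × ℝ)) b.1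
      rw [h2, h3] at h4
      linarith
    intro a b
    rw [Prod.dist_eq]
    exact max_le (hs _ _) (hs _ _)
  refine ⟨2 * K1 + K2, fun x hx n => ?_⟩
  have hρn : 0 < ρ ^ n := by positivity
  rcases lt_or_ge n (n₀ + 1) with hn | hn
  · refine (hdiam _ _).trans ((hK2 n hn).trans ?_)
    apply mul_le_mul_of_nonneg_right _ hρn.le
    linarith
  · obtain ⟨k, rfl⟩ : ∃ k, n = k + 1 := ⟨n - 1, by omega⟩
    have hnQ : ∀ i ≤ k, ¬ QQ P x i := by
      intro i _ hq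
      obtain ⟨m, hm⟩ := lands_of_QQ P hq
      exact hx m hm
    obtain ⟨h1, h2, h3⟩ := hbc x k hnQ
    rw [h1]
    refine (dist_sta_le P _).trans ?_
    have h4 : ‖YY P x k‖ ≤ D ^ (k + 1) * Real.exp (-(c * (((k + 1 : ℕ) : ℝ) - 1) ^ 2)) := by
      refine hfast x.1 (fun j => Nat.casesOn j 0 (fun i => ‖YY P x i‖)) (k + 1) ?_ ?_ ?_ (by omega)
      · intro j
        cases j with
        | zero => exact le_refl _
        | succ j => exact norm_nonneg _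
      · intro j hj
        exact h2 j (by omega)
      · intro j h4 hj
        obtain ⟨i, rfl⟩ : ∃ i, j = i + 1 := ⟨j - 1, by omega⟩
        exact h3 i (by omega)
    have h5 := h4.trans (hK1 (k + 1))
    have h6 : 0 ≤ K2 * ρ ^ (k + 1) := mul_nonneg hK20 hρn.le
    calc 2 * ‖YY P x k‖ ≤ 2 * (K1 * ρ ^ (k + 1)) := by linarith
      _ ≤ (2 * K1 + K2) * ρ ^ (k + 1) := by linarith

end Vale.Agent.P103.H162
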