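import Vale.Agent.P103.Statement
import Mathlib.MeasureTheory.Measure.Lebesgue.Basic
import Mathlib.Dynamics.Ergodic.MeasurePreserving
import Mathlib.Analysis.SpecialFunctions.Complex.Circle
import Mathlib.Geometry.Manifold.Instances.Sphere

/-!
# P103: maps whose whole dynamics consists of a rotation of two circles
-/

namespace Vale.Agent.P103.H162

open MeasureTheory Filter Topology
open scoped Manifold ContDiff ENNReal

/-- The uniform probability measure on the closed curve `c`: the law of `c (exp (2 π i s))` for a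
uniformly distributed `s` in `[0,1)`. -/
noncomputable def curveMeasure {M : Type} [MeasurableSpace M] (c : Circle → M) : Measure M :=
  Measure.map (fun s : ℝ => c (Circle.exp (2 * Real.pi * s))) (volume.restrict (Set.Ico (0 : ℝ) 1))

/-- The nonwandering set: every neighbourhood of the point returns to itself at a positive time. -/
def nonwandering {M : Type} [TopologicalSpace M] (g : M → M) : Set M :=
  {x | ∀ V : Set M, IsOpen V → x ∈ V → ∃ n : ℕ, 0 < n ∧ ∃ y ∈ V, g^[n] y ∈ V}

/-- The whole dynamics of `g` is the rotation by `w` of the two disjoint smooth circles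
`c₀` and `c₁`. -/
structure TwoCircles {E : Type} [NormedAddCommGroup E] [NormedSpace ℝ E] {H : Type}
    [TopologicalSpace H] (I : ModelWithCorners ℝ E H) {M : Type} [MetricSpace M]
    [ChartedSpace H M] (g : M → M) (w : Circle) (pr : M → Circle) (c₀ c₁ : Circle → M) :
    Prop where
  /-- the rotation by `w` is irrational -/
  irrational : ∀ n : ℕ, 0 < n → w ^ n ≠ 1
  smooth_pr : ContMDiff I (𝓡 1) ∞ pr
  smooth₀ : ContMDiff (𝓡 1) I ∞ c₀
  smooth₁ : ContMDiff (𝓡 1) I ∞ c₁
  section₀ : ∀ ζ, pr (c₀ ζ) = ζ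
  section₁ : ∀ ζ, pr (c₁ ζ) = ζ
  disjoint : ∀ ζ ζ', c₀ ζ ≠ c₁ ζ'
  /-- `g` is a skew product over the rotation -/
  skew : ∀ x, pr (g x) = w * pr x
  inv₀ : ∀ ζ, g (c₀ ζ) = c₀ (w * ζ)
  inv₁ : ∀ ζ, g (c₁ ζ) = c₁ (w * ζ)
  /-- a neighbourhood of the second circle is mapped into this circle -/
  super : ∃ U : Set M, IsOpen U ∧ (∀ ζ, c₁ ζ ∈ U) ∧ ∀ x ∈ U, g x = c₁ (w * pr x)
  /-- every orbit lands on the second circle, or converges to the first one faster than any
  exponential, uniformly -/
  orbit : ∀ ρ : ℝ, 0 < ρ → ∃ K : ℝ, ∀ x, (∃ m : ℕ, ∀ n, m ≤ n → g^[n] x = c₁ (w ^ n * pr x)) ∨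
    ∀ n : ℕ, dist (g^[n] x) (c₀ (w ^ n * pr x)) ≤ K * ρ ^ n
  /-- every orbit is `ε`-close to the first circle from the time `T` on, as long as it is more than
  `T` steps before its landing on the second one; here `T` depends on `ε` only -/
  uniform : ∀ ε : ℝ, 0 < ε → ∃ T : ℕ, ∀ (x : M) (n : ℕ), T ≤ n →
    dist (g^[n] x) (c₀ (w ^ n * pr x)) ≤ ε ∨ g^[n + T] x = c₁ (w ^ (n + T) * pr x)
  /-- the nonwandering set is the union of the two circles -/
  nonwandering_eq : nonwandering g = Set.range c₀ ∪ Set.range c₁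
  /-- the invariant probability measures are exactly the convex combinations of the uniform
  measures of the two circles -/
  measures : ∀ [MeasurableSpace M] [BorelSpace M] (μ : Measure M) [IsProbabilityMeasure μ],
    MeasurePreserving g μ μ ↔
      ∃ t : ℝ≥0∞, t ≤ 1 ∧ μ = t • curveMeasure c₀ + (1 - t) • curveMeasure c₁
  /-- polynomial growth of separated sets -/
  growth : ∀ ε : ℝ, 0 < ε → ∃ C D : ℕ, ∀ n : ℕ, sepCard g n ε ≤ ((C * (n + 1) ^ D : ℕ) : ℕ∞)

/-- `g` is a `C^1` map with zero topological entropy, the whole dynamics of `g` is the irrational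
rotation of two circles, and nevertheless `l` is an eigenvalue of `g_*` on `H_2(M;ℝ)` and
`ρ(g_*) ≥ l`. -/
def Counterexample {E : Type} [NormedAddCommGroup E] [NormedSpace ℝ E] {H : Type}
    [TopologicalSpace H] (I : ModelWithCorners ℝ E H) {M : Type} [MetricSpace M]
    [ChartedSpace H M] (g : C(M, M)) (l : ℝ) : Prop :=
  ContMDiff I I 1 g ∧ IsTopEntropy g 0 ∧
    (∃ (w : Circle) (pr : M → Circle) (c₀ c₁ : Circle → M), TwoCircles I g w pr c₀ c₁) ∧
    Module.End.HasEigenvalue (homologyMap 2 g) l ∧ ENNReal.ofReal l ≤ rho g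

end Vale.Agent.P103.H162
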