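import Vale.Agent.P103.Bdl.B1
import Vale.Agent.P103.H162.Defs

/-!
# P103: consequences of the uniform convergence to two circles: orbits, growth, entropy
-/

namespace Vale.Agent.P103.H162

open Filter Topology

/-- the part of the dynamical data from which the rest follows -/
structure Core {M : Type} [MetricSpace M] (g : M → M) (w : Circle) (pr : M → Circle)
    (c₀ c₁ : Circle → M) : Prop where
  irr : ∀ n : ℕ, 0 < n → w ^ n ≠ 1
  cg : Continuous g
  cpr : Continuous pr
  cc₀ : Continuous c₀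
  cc₁ : Continuous c₁
  s₀ : ∀ ζ, pr (c₀ ζ) = ζ
  s₁ : ∀ ζ, pr (c₁ ζ) = ζ
  dj : ∀ ζ ζ', c₀ ζ ≠ c₁ ζ'
  skew : ∀ x, pr (g x) = w * pr x
  inv₀ : ∀ ζ, g (c₀ ζ) = c₀ (w * ζ)
  inv₁ : ∀ ζ, g (c₁ ζ) = c₁ (w * ζ)
  uni : ∀ ε : ℝ, 0 < ε → ∃ T : ℕ, ∀ (x : M) (n : ℕ), T ≤ n →
    dist (g^[n] x) (c₀ (w ^ n * pr x)) ≤ ε ∨ g^[n + T] x = c₁ (w ^ (n + T) * pr x)
  fast : ∀ ρ : ℝ, 0 < ρ → ∃ K : ℝ, ∀ x, (∀ n, g^[n] x ≠ c₁ (w ^ n * pr x)) →
    ∀ n : ℕ, dist (g^[n] x) (c₀ (w ^ n * pr x)) ≤ K * ρ ^ n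

namespace Core

variable {M : Type} [MetricSpace M] {g : M → M} {w : Circle} {pr : M → Circle}
  {c₀ c₁ : Circle → M}

theorem pr_iter (h : Core g w pr c₀ c₁) (n : ℕ) (x : M) : pr (g^[n] x) = w ^ n * pr x := by
  induction n with
  | zero => simp
  | succ n ih => rw [Function.iterate_succ_apply', h.skew, ih, pow_succ', mul_assoc]

theorem stay (h : Core g w pr c₀ c₁) {n : ℕ} {x : M} (hn : g^[n] x = c₁ (w ^ n * pr x))
    {m : ℕ} (hm : n ≤ m) : g^[m] x = c₁ (w ^ m * pr x) := by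
  induction m, hm using Nat.le_induction with
  | base => exact hn
  | succ m _ ih => rw [Function.iterate_succ_apply', ih, h.inv₁, pow_succ', mul_assoc]

/-- the number of exceptional times is bounded -/
theorem card (h : Core g w pr c₀ c₁) {ε : ℝ} (hε : 0 < ε) :
    ∃ T : ℕ, ∀ (x : M) (B : Finset ℕ),
      (∀ n ∈ B, g^[n] x ≠ c₁ (w ^ n * pr x) ∧ ε < dist (g^[n] x) (c₀ (w ^ n * pr x))) →
      B.card ≤ T := by
  classical
  obtain ⟨T, hT⟩ := h.uni ε hε
  refine ⟨T + T, fun x B hB => ?_⟩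
  by_cases hne : (B.filter fun n => T ≤ n).Nonempty
  · set m := (B.filter fun n => T ≤ n).min' hne with hm
    have hmem := Finset.min'_mem _ hne
    rw [← hm, Finset.mem_filter] at hmem
    have hland : g^[m + T] x = c₁ (w ^ (m + T) * pr x) := by
      rcases hT x m hmem.2 with h1 | h1
      · exact absurd (hB m hmem.1).2 (not_lt.mpr h1)
      · exact h1
    have hsub : B ⊆ Finset.range T ∪ Finset.Ico m (m + T) := by
      intro n hn
      rw [Finset.mem_union, Finset.mem_range, Finset.mem_Ico]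
      rcases lt_or_ge n T with h1 | h1
      · left; exact h1
      · right
        refine ⟨Finset.min'_le _ _ (Finset.mem_filter.mpr ⟨hn, h1⟩), ?_⟩
        by_contra hcon
        exact (hB n hn).1 (h.stay hland (not_lt.mp hcon))
    refine (Finset.card_le_card hsub).trans ((Finset.card_union_le _ _).trans ?_)
    rw [Finset.card_range, Nat.card_Ico]
    omega
  · have hsub : B ⊆ Finset.range T := by
      intro n hn
      rw [Finset.mem_range]
      by_contra hcon
      exact hne ⟨n, Finset.mem_filter.mpr ⟨hn, not_lt.mp hcon⟩⟩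
    refine (Finset.card_le_card hsub).trans ?_
    rw [Finset.card_range]
    omega

theorem orbit (h : Core g w pr c₀ c₁) (x : M) :
    (∀ᶠ n in atTop, g^[n] x = c₁ (w ^ n * pr x)) ∨
      Tendsto (fun n => dist (g^[n] x) (c₀ (w ^ n * pr x))) atTop (𝓝 0) := by
  by_cases hx : ∃ n, g^[n] x = c₁ (w ^ n * pr x)
  · left
    obtain ⟨n, hn⟩ := hx
    filter_upwards [eventually_ge_atTop n] with m hm
    exact h.stay hn hm
  · right
    push Not at hx
    obtain ⟨K, hK⟩ := h.fast (1 / 2) (by norm_num)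
    have h1 : Tendsto (fun n : ℕ => K * (1 / 2 : ℝ) ^ n) atTop (𝓝 0) := by
      have h2 := (tendsto_pow_atTop_nhds_zero_of_lt_one (r := (1 / 2 : ℝ)) (by norm_num)
        (by norm_num)).const_mul K
      rwa [mul_zero] at h2
    exact squeeze_zero (fun n => dist_nonneg) (fun n => hK x hx n) h1

theorem orbit' (h : Core g w pr c₀ c₁) {ρ : ℝ} (hρ : 0 < ρ) : ∃ K : ℝ, ∀ x,
    (∃ m : ℕ, ∀ n, m ≤ n → g^[n] x = c₁ (w ^ n * pr x)) ∨
      ∀ n : ℕ, dist (g^[n] x) (c₀ (w ^ n * pr x)) ≤ K * ρ ^ n := by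
  obtain ⟨K, hK⟩ := h.fast ρ hρ
  refine ⟨K, fun x => ?_⟩
  by_cases hx : ∃ n, g^[n] x = c₁ (w ^ n * pr x)
  · left
    obtain ⟨m, hm⟩ := hx
    exact ⟨m, fun n hn => h.stay hm hn⟩
  · right
    push Not at hx
    exact hK x hx

/-- no return at small positive times -/
theorem no_return (h : Core g w pr c₀ c₁) (x : M) (N : ℕ) : ∃ V : Set M, IsOpen V ∧ x ∈ V ∧
    ∀ n : ℕ, 0 < n → n ≤ N → ∀ y ∈ V, g^[n] y ∉ V := by
  induction N with
  | zero => exact ⟨Set.univ, isOpen_univ, trivial, fun n h1 h2 => by omega⟩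
  | succ N ih =>
    obtain ⟨V, hV, hx, hn⟩ := ih
    have hne : g^[N + 1] x ≠ x := by
      intro h1
      have h2 := h.pr_iter (N + 1) x
      rw [h1] at h2
      apply h.irr (N + 1) (Nat.succ_pos N)
      have h3 : (1 : Circle) * pr x = w ^ (N + 1) * pr x := by rw [one_mul]; exact h2
      exact (mul_right_cancel h3).symm
    obtain ⟨A, B, hA, hB, hgA, hxB, hAB⟩ := t2_separation hne
    refine ⟨V ∩ (B ∩ g^[N + 1] ⁻¹' A), hV.inter (hB.inter (hA.preimage (h.cg.iterate _))),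
      ⟨hx, hxB, hgA⟩, fun n h1 h2 y hy hcon => ?_⟩
    rcases Nat.lt_or_ge N n with h3 | h3
    · obtain rfl : n = N + 1 := by omega
      exact Set.disjoint_left.mp hAB hy.2.2 hcon.2.1
    · exact hn n h1 h3 y hy.1 hcon.1

theorem wandering (h : Core g w pr c₀ c₁)
    (hU : ∃ U : Set M, IsOpen U ∧ (∀ ζ, c₁ ζ ∈ U) ∧ ∀ x ∈ U, g x = c₁ (w * pr x)) {x : M}
    (h0 : ∀ ζ, x ≠ c₀ ζ) (h1 : ∀ ζ, x ≠ c₁ ζ) : ∃ V : Set M, IsOpen V ∧ x ∈ V ∧
    ∀ n : ℕ, 0 < n → ∀ y ∈ V, g^[n] y ∉ V := by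
  by_cases hx : ∃ m, g^[m] x = c₁ (w ^ m * pr x)
  · obtain ⟨m, hm⟩ := hx
    obtain ⟨U, hUo, hUc, hUg⟩ := hU
    obtain ⟨V, hV, hxV, hn⟩ := h.no_return x m
    have hW : IsOpen {y | y ≠ c₁ (pr y)} :=
      isOpen_ne_fun continuous_id (h.cc₁.comp h.cpr)
    refine ⟨V ∩ ({y | y ≠ c₁ (pr y)} ∩ g^[m] ⁻¹' U),
      hV.inter (hW.inter (hUo.preimage (h.cg.iterate m))), ⟨hxV, h1 _, ?_⟩, ?_⟩
    · change g^[m] x ∈ U
      rw [hm]
      exact hUc _
    · intro n hn0 y hy hcon
      rcases Nat.lt_or_ge m n with h3 | h3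
      · have h4 : g^[m + 1] y = c₁ (w ^ (m + 1) * pr y) := by
          rw [Function.iterate_succ_apply', hUg _ hy.2.2, h.pr_iter, pow_succ', mul_assoc]
        have h5 := h.stay h4 (show m + 1 ≤ n from h3)
        apply hcon.2.1
        rw [h.pr_iter]
        exact h5
      · exact hn n hn0 h3 y hy.1 hcon.1
  · push Not at hx
    have hpos : 0 < dist x (c₀ (pr x)) := dist_pos.mpr (h0 _)
    obtain ⟨T, hT⟩ := h.uni (dist x (c₀ (pr x)) / 2) (half_pos hpos)
    obtain ⟨V, hV, hxV, hn⟩ := h.no_return x T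
    have hW : IsOpen {y | dist x (c₀ (pr x)) / 2 < dist y (c₀ (pr y))} :=
      isOpen_lt continuous_const (continuous_id.dist (h.cc₀.comp h.cpr))
    have hW2 : IsOpen {y | g^[T] y ≠ c₁ (w ^ T * pr y)} :=
      isOpen_ne_fun (h.cg.iterate T) (h.cc₁.comp (continuous_const.mul h.cpr))
    refine ⟨V ∩ ({y | dist x (c₀ (pr x)) / 2 < dist y (c₀ (pr y))} ∩
      {y | g^[T] y ≠ c₁ (w ^ T * pr y)}), hV.inter (hW.inter hW2),
      ⟨hxV, half_lt_self hpos, hx T⟩, ?_⟩
    intro n hn0 y hy hcon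
    rcases Nat.lt_or_ge T n with h3 | h3
    · rcases hT y n h3.le with h4 | h4
      · have h5 := hcon.2.1
        change dist x (c₀ (pr x)) / 2 < dist (g^[n] y) (c₀ (pr (g^[n] y))) at h5
        rw [h.pr_iter] at h5
        exact absurd h5 (not_lt.mpr h4)
      · apply hcon.2.2
        rw [h.pr_iter, ← Function.iterate_add_apply, add_comm T n, h4, pow_add, mul_comm (w ^ n),
          mul_assoc]
    · exact hn n hn0 h3 y hy.1 hcon.1

/-- Coding: separated sets grow polynomially. -/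
theorem poly [CompactSpace M] (h : Core g w pr c₀ c₁) {ε : ℝ} (hε : 0 < ε) :
    ∃ C D : ℕ, ∀ (n : ℕ) (E : Finset M),
      (∀ x ∈ E, ∀ y ∈ E, x ≠ y → ε < dn g n x y) → E.card ≤ C * (n + 1) ^ D := by
  classical
  obtain ⟨T, hT⟩ := h.card (ε := ε / 3) (by positivity)
  obtain ⟨δ₀, hδ₀, H₀⟩ := Metric.uniformContinuous_iff.mp
    (CompactSpace.uniformContinuous_of_continuous h.cc₀) (ε / 3) (by positivity)
  obtain ⟨δ₁, hδ₁, H₁⟩ := Metric.uniformContinuous_iff.mp
    (CompactSpace.uniformContinuous_of_continuous h.cc₁) (ε / 3) (by positivity)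
  obtain ⟨δ, hδ, hδ0, hδ1⟩ : ∃ δ : ℝ, 0 < δ ∧ δ ≤ δ₀ ∧ δ ≤ δ₁ :=
    ⟨min δ₀ δ₁, lt_min hδ₀ hδ₁, min_le_left _ _, min_le_right _ _⟩
  obtain ⟨tY, -, htYfin, htY⟩ := finite_cover_balls_of_compact (isCompact_univ (X := M))
    (half_pos hε)
  obtain ⟨tC, -, htCfin, htC⟩ := finite_cover_balls_of_compact (isCompact_univ (X := Circle))
    (half_pos hδ)
  have hcy : ∀ y : M, ∃ i : tY, dist y i < ε / 2 := by
    intro y
    have := htY (Set.mem_univ y)
    simp only [Set.mem_iUnion, Metric.mem_ball, exists_prop] at this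
    obtain ⟨i, hi, h⟩ := this
    exact ⟨⟨i, hi⟩, h⟩
  have hcz : ∀ y : Circle, ∃ i : tC, dist y i < δ / 2 := by
    intro y
    have := htC (Set.mem_univ y)
    simp only [Set.mem_iUnion, Metric.mem_ball, exists_prop] at this
    obtain ⟨i, hi, h⟩ := this
    exact ⟨⟨i, hi⟩, h⟩
  choose cy hcy using hcy
  choose cz hcz using hcz
  have : Fintype tY := htYfin.fintype
  have : Fintype tC := htCfin.fintype
  set N := Fintype.card tY with hN
  set N0 := Fintype.card tC with hN0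
  refine ⟨N0 * (N + 1) ^ T, T + 1, fun n E hE => ?_⟩
  -- escape time
  have hex : ∀ x : M, ∃ j, j = n ∨ g^[j] x = c₁ (w ^ j * pr x) := fun x => ⟨n, Or.inl rfl⟩
  set τ : M → ℕ := fun x => Nat.find (hex x) with hτ
  have hτn : ∀ x, τ x < n + 1 := fun x =>
    Nat.lt_succ_of_le (Nat.find_min' (hex x) (Or.inl rfl))
  have hτq : ∀ (x : M) (j : ℕ), j < n → (g^[j] x = c₁ (w ^ j * pr x) ↔ τ x ≤ j) := by
    intro x j hj
    constructor
    · intro h2; exact Nat.find_min' (hex x) (Or.inr h2)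
    · intro h2
      have hspec := Nat.find_spec (hex x)
      rcases hspec with h1 | h1
      · exfalso
        have : τ x = n := h1
        omega
      · exact h.stay h1 h2
  -- bad set
  set bad : M → Fin n → Prop := fun x j =>
    g^[j] x ≠ c₁ (w ^ (j : ℕ) * pr x) ∧ ε / 3 < dist (g^[j] x) (c₀ (w ^ (j : ℕ) * pr x)) with hbad
  set B : M → Finset (Fin n × tY) := fun x =>
    (Finset.univ.filter (bad x)).image (fun j => (j, cy (g^[j] x))) with hB
  have hBcard : ∀ x, (B x).card ≤ T := by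
    intro x
    refine Finset.card_image_le.trans ?_
    have h1 : ((Finset.univ.filter (bad x)).map Fin.valEmbedding).card ≤ T := by
      apply hT x
      intro j hj
      rw [Finset.mem_map] at hj
      obtain ⟨i, hi, rfl⟩ := hj
      exact (Finset.mem_filter.mp hi).2
    rwa [Finset.card_map] at h1
  -- list coding of the bad set
  set φ : M → Fin T → Option (Fin n × tY) := fun x i => (B x).toList[(i : ℕ)]? with hφ
  have hφB : ∀ x y, φ x = φ y → B x ⊆ B y := by
    intro x y hxy b hb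
    have hb' : b ∈ (B x).toList := Finset.mem_toList.mpr hb
    obtain ⟨i, hi, hib⟩ := List.getElem_of_mem hb'
    have hiT : i < T := lt_of_lt_of_le hi (by rw [Finset.length_toList]; exact hBcard x)
    have h1 : φ x ⟨i, hiT⟩ = some b := by
      simp only [hφ]
      rw [List.getElem?_eq_getElem hi, hib]
    rw [hxy] at h1
    simp only [hφ] at h1
    have h2 := List.mem_of_getElem? h1
    exact Finset.mem_toList.mp h2
  -- the code
  set code : M → tC × (Fin (n + 1) × (Fin T → Option (Fin n × tY))) := fun x =>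
    (cz (pr x), (⟨τ x, hτn x⟩, φ x)) with hcode
  have hrot : ∀ (j : ℕ) (a b : Circle), dist (w ^ j * a) (w ^ j * b) = dist a b :=
    fun j a b => (isometry_rot (w ^ j)).dist_eq a b
  have hinj : ∀ x ∈ E, ∀ y ∈ E, code x = code y → x = y := by
    intro x hx y hy hxy
    by_contra hne
    have hlt := hE x hx y hy hne
    have hle : dn g n x y ≤ ε := by
      unfold dn
      refine Real.iSup_le (fun j => ?_) hε.le
      have hc1 : cz (pr x) = cz (pr y) := congrArg Prod.fst hxy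
      have hc2 : τ x = τ y := by
        have := congrArg (fun c => (c.2.1 : ℕ)) hxy
        exact this
      have hc3 : φ x = φ y := congrArg (fun c => c.2.2) hxy
      have hπ : dist (pr x) (pr y) < δ := by
        have h2 := hcz (pr x)
        have h3 := hcz (pr y)
        rw [hc1] at h2
        have := dist_triangle_right (pr x) (pr y) (cz (pr y))
        linarith only [h2, h3, this]
      have e0 : dist (c₀ (w ^ (j : ℕ) * pr x)) (c₀ (w ^ (j : ℕ) * pr y)) < ε / 3 := by
        apply H₀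
        rw [hrot]
        linarith only [hπ, hδ0]
      have e1 : dist (c₁ (w ^ (j : ℕ) * pr x)) (c₁ (w ^ (j : ℕ) * pr y)) < ε / 3 := by
        apply H₁
        rw [hrot]
        linarith only [hπ, hδ1]
      by_cases hq1 : τ x ≤ j
      · have h1 := (hτq x j j.2).mpr hq1
        have h2 := (hτq y j j.2).mpr (hc2 ▸ hq1)
        rw [h1, h2]
        linarith only [e1, hε]
      · have h1 : g^[j] x ≠ c₁ (w ^ (j : ℕ) * pr x) := fun h => hq1 ((hτq x j j.2).mp h)
        have h2 : g^[j] y ≠ c₁ (w ^ (j : ℕ) * pr y) :=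
          fun h => hq1 (hc2 ▸ (hτq y j j.2).mp h)
        have hstep : ∀ a b : M, φ a = φ b → bad a j →
            bad b j ∧ cy (g^[j] a) = cy (g^[j] b) := by
          intro a b hab hba
          have hmem : ((j, cy (g^[j] a)) : Fin n × tY) ∈ B a := by
            rw [hB]
            exact Finset.mem_image.mpr ⟨j, Finset.mem_filter.mpr ⟨Finset.mem_univ _, hba⟩, rfl⟩
          have hmem2 := hφB a b hab hmem
          rw [hB] at hmem2
          obtain ⟨i, hi, hi2⟩ := Finset.mem_image.mp hmem2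
          have hij : i = j := congrArg Prod.fst hi2
          subst hij
          exact ⟨(Finset.mem_filter.mp hi).2, (congrArg Prod.snd hi2).symm⟩
        by_cases hb : bad x j
        · obtain ⟨hb2, hcc⟩ := hstep x y hc3 hb
          have h3 := hcy (g^[j] x)
          have h4 := hcy (g^[j] y)
          rw [hcc] at h3
          have := dist_triangle_right (g^[j] x) (g^[j] y) (cy (g^[j] y))
          linarith only [h3, h4, this]
        · have hb2 : ¬ bad y j := fun h => hb (hstep y x hc3.symm h).1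
          have h3 : dist (g^[j] x) (c₀ (w ^ (j : ℕ) * pr x)) ≤ ε / 3 := by
            by_contra h
            exact hb ⟨h1, not_le.mp h⟩
          have h4 : dist (g^[j] y) (c₀ (w ^ (j : ℕ) * pr y)) ≤ ε / 3 := by
            by_contra h
            exact hb2 ⟨h2, not_le.mp h⟩
          have t1 := dist_triangle (g^[j] x) (c₀ (w ^ (j : ℕ) * pr x)) (g^[j] y)
          have t2 := dist_triangle_right (c₀ (w ^ (j : ℕ) * pr x)) (g^[j] y)
            (c₀ (w ^ (j : ℕ) * pr y))
          linarith only [h3, h4, t1, t2, e0]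
    exact absurd hlt (not_lt.mpr hle)
  have hcard : E.card ≤ Fintype.card (tC × (Fin (n + 1) × (Fin T → Option (Fin n × tY)))) := by
    rw [← Finset.card_univ]
    exact Finset.card_le_card_of_injOn code (fun x _ => Finset.mem_coe.mpr (Finset.mem_univ _))
      (fun x hx y hy h => hinj x hx y hy h)
  refine hcard.trans ?_
  rw [Fintype.card_prod, Fintype.card_prod, Fintype.card_fun, Fintype.card_option,
    Fintype.card_prod, Fintype.card_fin, Fintype.card_fin, Fintype.card_fin, ← hN, ← hN0]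
  have h1 : n * N + 1 ≤ (N + 1) * (n + 1) := by nlinarith only []
  calc N0 * ((n + 1) * (n * N + 1) ^ T)
      ≤ N0 * ((n + 1) * ((N + 1) * (n + 1)) ^ T) := by gcongr
    _ = N0 * (N + 1) ^ T * (n + 1) ^ (T + 1) := by rw [mul_pow]; ring

theorem growth [CompactSpace M] (h : Core g w pr c₀ c₁) {ε : ℝ} (hε : 0 < ε) :
    ∃ C D : ℕ, ∀ n : ℕ, sepCard g n ε ≤ ((C * (n + 1) ^ D : ℕ) : ℕ∞) := by
  obtain ⟨C, D, hCD⟩ := h.poly hε
  refine ⟨C, D, fun n => ?_⟩
  unfold sepCard
  refine iSup₂_le fun E hE => ?_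
  exact_mod_cast hCD n E hE

theorem entropy [CompactSpace M] (h : Core g w pr c₀ c₁) : IsTopEntropy g 0 := by
  have : Nonempty M := ⟨c₀ 1⟩
  exact isTopEntropy_zero_of_poly g fun ε hε => h.poly hε

end Core

end Vale.Agent.P103.H162
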