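import Vale.Agent.P103.H162.Inv
import Vale.Agent.P103.H162.Cap
import Vale.Agent.P103.H308.Prod

/-!
# P103: the dynamics of the counterexample, of its powers and of its products
-/

namespace Vale.Agent.P103.H162

open Filter Topology CategoryTheory AlgebraicTopology
open scoped Manifold ContDiff

/-! ### general operations -/

/-- the data from which `TwoCircles` follows -/
structure Pre {E : Type} [NormedAddCommGroup E] [NormedSpace ℝ E] {H : Type}
    [TopologicalSpace H] (I : ModelWithCorners ℝ E H) {M : Type} [MetricSpace M]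
    [ChartedSpace H M] (g : M → M) (w : Circle) (pr : M → Circle) (c₀ c₁ : Circle → M) :
    Prop where
  core : Core g w pr c₀ c₁
  smooth_pr : ContMDiff I (𝓡 1) ∞ pr
  smooth₀ : ContMDiff (𝓡 1) I ∞ c₀
  smooth₁ : ContMDiff (𝓡 1) I ∞ c₁
  super : ∃ U : Set M, IsOpen U ∧ (∀ ζ, c₁ ζ ∈ U) ∧ ∀ x ∈ U, g x = c₁ (w * pr x)

section ops

variable {E : Type} [NormedAddCommGroup E] [NormedSpace ℝ E] {H : Type}
  [TopologicalSpace H] {I : ModelWithCorners ℝ E H} {M : Type} [MetricSpace M]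
  [ChartedSpace H M] {g : M → M} {w : Circle} {pr : M → Circle} {c₀ c₁ : Circle → M}

/-- points of an invariant curve with an irrational rotation are nonwandering -/
theorem mem_nonwandering {c : Circle → M} (hc : Continuous c) (hw : ∀ n : ℕ, 0 < n → w ^ n ≠ 1)
    (hinv : ∀ n ζ, g^[n] (c ζ) = c (w ^ n * ζ)) (ζ : Circle) : c ζ ∈ nonwandering g := by
  intro V hV hx
  have hO : IsOpen {z : Circle | c (w * z * ζ) ∈ V} :=
    hV.preimage (hc.comp ((continuous_const.mul continuous_id).mul continuous_const))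
  obtain ⟨n, hn⟩ := (dense_pow hw).exists_mem_open hO
    ⟨w⁻¹, by
      change c (w * w⁻¹ * ζ) ∈ V
      rw [mul_inv_cancel, one_mul]
      exact hx⟩
  refine ⟨n + 1, Nat.succ_pos n, c ζ, hx, ?_⟩
  rw [hinv, pow_succ']
  exact hn

theorem Core.iter₀ (h : Core g w pr c₀ c₁) (n : ℕ) (ζ : Circle) :
    g^[n] (c₀ ζ) = c₀ (w ^ n * ζ) := by
  induction n with
  | zero => simp
  | succ n ih => rw [Function.iterate_succ_apply', ih, h.inv₀, pow_succ', mul_assoc]

theorem Core.iter₁ (h : Core g w pr c₀ c₁) (n : ℕ) (ζ : Circle) :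
    g^[n] (c₁ ζ) = c₁ (w ^ n * ζ) := by
  induction n with
  | zero => simp
  | succ n ih => rw [Function.iterate_succ_apply', ih, h.inv₁, pow_succ', mul_assoc]

theorem Pre.nonwandering_eq (h : Pre I g w pr c₀ c₁) :
    nonwandering g = Set.range c₀ ∪ Set.range c₁ := by
  ext x
  constructor
  · intro hx
    by_contra hcon
    rw [Set.mem_union, not_or] at hcon
    obtain ⟨V, hV, hxV, hn⟩ := h.core.wandering h.super
      (fun ζ hζ => hcon.1 ⟨ζ, hζ.symm⟩) (fun ζ hζ => hcon.2 ⟨ζ, hζ.symm⟩)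
    obtain ⟨n, hn0, y, hy, hy2⟩ := hx V hV hxV
    exact hn n hn0 y hy hy2
  · rintro (⟨ζ, rfl⟩ | ⟨ζ, rfl⟩)
    · exact mem_nonwandering h.core.cc₀ h.core.irr h.core.iter₀ ζ
    · exact mem_nonwandering h.core.cc₁ h.core.irr h.core.iter₁ ζ

theorem Pre.twoCircles [CompactSpace M] (h : Pre I g w pr c₀ c₁) :
    TwoCircles I g w pr c₀ c₁ where
  irrational := h.core.irr
  smooth_pr := h.smooth_pr
  smooth₀ := h.smooth₀
  smooth₁ := h.smooth₁
  section₀ := h.core.s₀
  section₁ := h.core.s₁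
  disjoint := h.core.dj
  skew := h.core.skew
  inv₀ := h.core.inv₀
  inv₁ := h.core.inv₁
  super := h.super
  orbit _ hρ := h.core.orbit' hρ
  uniform := h.core.uni
  nonwandering_eq := h.nonwandering_eq
  measures μ _ := h.core.measures μ
  growth _ hε := h.core.growth hε

theorem Core.pow (h : Core g w pr c₀ c₁) {k : ℕ} (hk : 1 ≤ k) :
    Core (g^[k]) (w ^ k) pr c₀ c₁ where
  irr n hn := by
    rw [← pow_mul]
    exact h.irr _ (Nat.mul_pos hk hn)
  cg := h.cg.iterate k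
  cpr := h.cpr
  cc₀ := h.cc₀
  cc₁ := h.cc₁
  s₀ := h.s₀
  s₁ := h.s₁
  dj := h.dj
  skew x := h.pr_iter k x
  inv₀ := h.iter₀ k
  inv₁ := h.iter₁ k
  uni ε hε := by
    obtain ⟨T, hT⟩ := h.uni ε hε
    refine ⟨T, fun x n hn => ?_⟩
    rw [← Function.iterate_mul, ← Function.iterate_mul, ← pow_mul, ← pow_mul]
    have h1 : n ≤ k * n := Nat.le_mul_of_pos_left n hk
    rcases hT x (k * n) (hn.trans h1) with h2 | h2
    · left; exact h2
    · right
      refine h.stay h2 ?_
      rw [Nat.mul_add]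
      exact Nat.add_le_add_left (Nat.le_mul_of_pos_left T hk) _
  fast ρ hρ := by
    obtain ⟨ρ', hρ', hρ1, hρ2⟩ : ∃ ρ' : ℝ, 0 < ρ' ∧ ρ' ≤ 1 ∧ ρ' ≤ ρ :=
      ⟨min ρ 1, lt_min hρ one_pos, min_le_right _ _, min_le_left _ _⟩
    obtain ⟨K, hK⟩ := h.fast ρ' hρ'
    refine ⟨max K 0, fun x hx n => ?_⟩
    have hx' : ∀ n, g^[n] x ≠ c₁ (w ^ n * pr x) := by
      intro n hn
      apply hx n
      rw [← Function.iterate_mul, ← pow_mul]
      exact h.stay hn (Nat.le_mul_of_pos_left n hk)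
    rw [← Function.iterate_mul, ← pow_mul]
    refine (hK x hx' (k * n)).trans ?_
    have h1 : ρ' ^ (k * n) ≤ ρ' ^ n :=
      pow_le_pow_of_le_one hρ'.le hρ1 (Nat.le_mul_of_pos_left n hk)
    have h2 : ρ' ^ n ≤ ρ ^ n := pow_le_pow_left₀ hρ'.le hρ2 n
    calc K * ρ' ^ (k * n) ≤ max K 0 * ρ' ^ (k * n) :=
          mul_le_mul_of_nonneg_right (le_max_left _ _) (by positivity)
      _ ≤ max K 0 * ρ ^ n := mul_le_mul_of_nonneg_left (h1.trans h2) (le_max_right _ _)

theorem Pre.pow (h : Pre I g w pr c₀ c₁) {k : ℕ} (hk : 1 ≤ k) :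
    Pre I (g^[k]) (w ^ k) pr c₀ c₁ where
  core := h.core.pow hk
  smooth_pr := h.smooth_pr
  smooth₀ := h.smooth₀
  smooth₁ := h.smooth₁
  super := by
    obtain ⟨U, hU, hc, hg⟩ := h.super
    refine ⟨U, hU, hc, fun x hx => ?_⟩
    obtain ⟨j, rfl⟩ : ∃ j, k = j + 1 := ⟨k - 1, by omega⟩
    rw [Function.iterate_succ_apply, hg x hx, h.core.iter₁, pow_succ, mul_assoc]

omit [MetricSpace M] in
theorem prod_iter {N : Type} (g : M → M) (y₀ : N) (n : ℕ) (x : M × N) :
    (fun z : M × N => (g z.1, y₀))^[n + 1] x = (g^[n + 1] x.1, y₀) := by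
  induction n with
  | zero => rfl
  | succ n ih =>
    rw [Function.iterate_succ_apply', ih]
    exact Prod.ext (Function.iterate_succ_apply' g (n + 1) x.1).symm rfl

theorem Core.prodConst {N : Type} [MetricSpace N] [CompactSpace N] (y₀ : N)
    (h : Core g w pr c₀ c₁) :
    Core (fun z : M × N => (g z.1, y₀)) w (fun z => pr z.1) (fun ζ => (c₀ ζ, y₀))
      (fun ζ => (c₁ ζ, y₀)) where
  irr := h.irr
  cg := (h.cg.comp continuous_fst).prodMk continuous_const
  cpr := h.cpr.comp continuous_fst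
  cc₀ := h.cc₀.prodMk continuous_const
  cc₁ := h.cc₁.prodMk continuous_const
  s₀ := h.s₀
  s₁ := h.s₁
  dj ζ ζ' := fun hh => h.dj ζ ζ' (congrArg Prod.fst hh)
  skew x := h.skew x.1
  inv₀ ζ := by rw [h.inv₀]
  inv₁ ζ := by rw [h.inv₁]
  uni ε hε := by
    obtain ⟨T, hT⟩ := h.uni ε hε
    refine ⟨T + 1, fun x n hn => ?_⟩
    obtain ⟨m, rfl⟩ : ∃ m, n = m + 1 := ⟨n - 1, by omega⟩
    rw [← Nat.add_assoc (m + 1) T 1, prod_iter, prod_iter]
    rcases hT x.1 (m + 1) (by omega) with h1 | h1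
    · left
      rw [Prod.dist_eq]
      exact max_le h1 (by rw [dist_self]; exact hε.le)
    · right
      rw [h.stay h1 (Nat.le_succ _)]
  fast ρ hρ := by
    obtain ⟨K, hK⟩ := h.fast ρ hρ
    obtain ⟨B, hB⟩ := (isCompact_univ (X := N)).exists_bound_of_continuousOn
      (f := fun y : N => dist y y₀) (continuous_id.dist continuous_const).continuousOn
    refine ⟨max K 0 + max B 0, fun x hx n => ?_⟩
    have hx' : ∀ n, g^[n] x.1 ≠ c₁ (w ^ n * pr x.1) := by
      intro n hn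
      apply hx (n + 1)
      rw [prod_iter, h.stay hn (Nat.le_succ n)]
    have hρn : 0 < ρ ^ n := by positivity
    have h1 := hK x.1 hx' n
    have h2 : K * ρ ^ n ≤ max K 0 * ρ ^ n := mul_le_mul_of_nonneg_right (le_max_left _ _) hρn.le
    have h3 : 0 ≤ max K 0 * ρ ^ n := mul_nonneg (le_max_right _ _) hρn.le
    have h4 : 0 ≤ max B 0 * ρ ^ n := mul_nonneg (le_max_right _ _) hρn.le
    rw [add_mul]
    rcases Nat.eq_zero_or_pos n with rfl | hn
    · rw [Prod.dist_eq]
      apply max_le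
      · change dist x.1 _ ≤ _
        have h5 : dist x.1 (c₀ (w ^ 0 * pr x.1)) ≤ K * ρ ^ 0 := h1
        linarith
      · change dist x.2 y₀ ≤ _
        have h5 := hB x.2 (Set.mem_univ _)
        rw [Real.norm_eq_abs, abs_of_nonneg dist_nonneg] at h5
        have h6 : B ≤ max B 0 := le_max_left _ _
        rw [pow_zero, mul_one] at h3 ⊢
        linarith
    · obtain ⟨m, rfl⟩ : ∃ m, n = m + 1 := ⟨n - 1, by omega⟩
      rw [prod_iter, Prod.dist_eq]
      apply max_le
      · change dist (g^[m + 1] x.1) (c₀ (w ^ (m + 1) * pr x.1)) ≤ _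
        linarith
      · change dist y₀ y₀ ≤ _
        rw [dist_self]
        linarith

theorem Pre.prodConst {E' : Type} [NormedAddCommGroup E'] [NormedSpace ℝ E'] {H' : Type}
    [TopologicalSpace H'] {I' : ModelWithCorners ℝ E' H'} {N : Type} [MetricSpace N]
    [ChartedSpace H' N] [CompactSpace N] (y₀ : N) (h : Pre I g w pr c₀ c₁) :
    Pre (I.prod I') (fun z : M × N => (g z.1, y₀)) w (fun z => pr z.1) (fun ζ => (c₀ ζ, y₀))
      (fun ζ => (c₁ ζ, y₀)) where
  core := h.core.prodConst y₀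
  smooth_pr := h.smooth_pr.comp contMDiff_fst
  smooth₀ := h.smooth₀.prodMk contMDiff_const
  smooth₁ := h.smooth₁.prodMk contMDiff_const
  super := by
    obtain ⟨U, hU, hc, hg⟩ := h.super
    refine ⟨U ×ˢ Set.univ, hU.prod isOpen_univ, fun ζ => ⟨hc ζ, trivial⟩, fun x hx => ?_⟩
    rw [hg x.1 hx.1]

end ops

/-! ### the counterexample -/

theorem sou_ne_nor {V : Type} [NormedAddCommGroup V] [InnerProductSpace ℝ V] :
    (sou : Sph V) ≠ nor := by
  intro h
  have h1 : (-1 : ℝ) = 1 := congrArg ht h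
  norm_num at h1

theorem ist_zero {V : Type} [NormedAddCommGroup V] [InnerProductSpace ℝ V] :
    (ist 0 : Sph V) = sou := by
  apply Sph_ext
  · unfold ist sou
    rw [hp_mk, hp_mk, smul_zero]
  · unfold ist sou
    rw [ht_mk, ht_mk, norm_zero]
    norm_num

variable (P : Par)

theorem sta_zero : P.sta 0 = (sou, sou) := by
  have h1 : P.hat 0 = 0 := by
    unfold Par.hat
    simp
  unfold Par.sta
  rw [h1, ist_zero]
  have h2 : E2 ((0 : P.V) 0) = ist 0 := by
    have h3 : (0 : P.V) 0 = 0 := rfl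
    rw [h3]
    exact exc_E2_eq_ist (by simp)
  rw [h2, ist_zero]

theorem fib_sou (ζ : Circle) : P.fib ζ sou sou = (sou, sou) := by
  have h0 : ht (sou : Sph ℂ) < -(3 / 4) := by
    change (-1 : ℝ) < _
    norm_num
  rw [P.exc_fib_in ζ sou sou h0]
  have h1 : P.G ζ sou sou = P.F ζ (st sou) (st sou) := by
    unfold Par.G
    rw [if_neg sou_ne_nor]
  have hst : ∀ {V : Type} [NormedAddCommGroup V] [InnerProductSpace ℝ V], st (sou : Sph V) = 0 := by
    intro V _ _
    unfold st sou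
    rw [hp_mk, smul_zero]
  have h2 : P.F ζ 0 0 = 0 := by
    obtain ⟨C, -, -, -, hF⟩ := P.excHyp.C
    have h3 := hF ζ 0 0
    rw [norm_zero, norm_zero, add_zero, mul_zero] at h3
    exact norm_le_zero_iff.mp h3
  rw [h1, hst, hst, h2, sta_zero]

theorem core_fM : Core P.fM P.ω Prod.fst (fun ζ => (ζ, (sou, sou))) (fun ζ => (ζ, (nor, sou))) where
  irr n hn h1 := by
    have h2 := P.nt.low n hn
    rw [h1] at h2
    have h3 := P.nt.h_pos
    simp only [Circle.coe_one, sub_self, norm_zero, mul_zero] at h2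
    linarith
  cg := P.fM_continuous
  cpr := continuous_fst
  cc₀ := by fun_prop
  cc₁ := by fun_prop
  s₀ _ := rfl
  s₁ _ := rfl
  dj ζ ζ' h := sou_ne_nor (congrArg (fun z => z.2.1) h)
  skew _ := rfl
  inv₀ ζ := Prod.ext rfl (fib_sou P ζ)
  inv₁ ζ := Prod.ext rfl (P.exc_fib_inf ζ)
  uni ε hε := by
    obtain ⟨η, hη, hη1, hU⟩ := P.exc_U_small hε
    obtain ⟨T, hT⟩ := orbit_dichotomy P hη hη1
    refine ⟨T, fun x n hn => ?_⟩
    rcases hT x n hn with h | h
    · left
      have hz : ((sou, sou) : Sph ℂ × Sph P.V) ∈ P.exU η :=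
        ⟨0, 0, by rw [norm_zero]; exact hη, by rw [norm_zero]; exact hη,
          by rw [ist_zero, ist_zero]⟩
      have h3 := hU _ h _ hz
      rw [Prod.dist_eq]
      refine max_le ?_ h3
      change dist (P.fM^[n] x).1 (P.ω ^ n * x.1) ≤ ε
      rw [P.exc_fM_fst, dist_self]
      exact hε.le
    · right
      exact Prod.ext (P.exc_fM_fst x (n + T)) h
  fast ρ hρ := by
    obtain ⟨K, hK⟩ := fast P hρ
    refine ⟨K, fun x hx n => ?_⟩
    have h1 := hK x (fun n hn => hx n (Prod.ext (P.exc_fM_fst x n) hn)) n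
    rw [Prod.dist_eq]
    refine max_le ?_ h1
    change dist (P.fM^[n] x).1 (P.ω ^ n * x.1) ≤ _
    rw [P.exc_fM_fst, dist_self]
    exact dist_nonneg.trans h1

theorem pre_fM : Pre ((𝓡 1).prod ((𝓡 2).prod (𝓡 (2 * P.p)))) P.fM P.ω Prod.fst
    (fun ζ => (ζ, (sou, sou))) (fun ζ => (ζ, (nor, sou))) where
  core := core_fM P
  smooth_pr := contMDiff_fst
  smooth₀ := contMDiff_id.prodMk contMDiff_const
  smooth₁ := contMDiff_id.prodMk contMDiff_const
  super := by
    refine ⟨{x | -(3 / 4) < ht x.2.1}, ?_, fun ζ => ?_, fun x hx => ?_⟩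
    · exact isOpen_lt continuous_const (continuous_ht_bd270.comp (continuous_fst.comp continuous_snd))
    · change -(3 / 4) < (1 : ℝ)
      norm_num
    · have h1 : -(3 / 4) < ht x.2.1 := hx
      exact Prod.ext rfl (P.exc_fib_out _ _ _ (not_lt.mpr h1.le))

end Vale.Agent.P103.H162
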