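import Vale.Agent.P103.H162.Meas

/-!
# P103: the invariant probability measures of a map with two circles
-/

namespace Vale.Agent.P103.H162

open MeasureTheory Filter Topology
open scoped ENNReal BoundedContinuousFunction

variable {M : Type} [MetricSpace M] [MeasurableSpace M] [BorelSpace M]

theorem measurable_curve {c : Circle → M} (hc : Continuous c) :
    Measurable (fun s : ℝ => c (Circle.exp (2 * Real.pi * s))) :=
  (hc.comp (Circle.exp.continuous.comp (continuous_const.mul continuous_id))).measurable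

theorem prob_curve {c : Circle → M} (hc : Continuous c) :
    IsProbabilityMeasure (curveMeasure c) := by
  have : IsProbabilityMeasure (volume.restrict (Set.Ico (0 : ℝ) 1)) := ⟨by simp⟩
  exact Measure.isProbabilityMeasure_map (measurable_curve hc).aemeasurable

theorem integral_curve {c : Circle → M} (hc : Continuous c) {F : M → ℝ} (hF : Continuous F) :
    ∫ x, F x ∂(curveMeasure c) = mean (fun z => F (c z)) := by
  unfold curveMeasure mean
  rw [integral_map (measurable_curve hc).aemeasurable hF.aestronglyMeasurable]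

/-- a curve on which `g` is a rotation has invariant uniform measure -/
theorem map_curve {g : M → M} (hg : Continuous g) {c : Circle → M} (hc : Continuous c)
    {w : Circle} (hinv : ∀ ζ, g (c ζ) = c (w * ζ)) :
    Measure.map g (curveMeasure c) = curveMeasure c := by
  have h1 := prob_curve hc
  have h2 : IsProbabilityMeasure (Measure.map g (curveMeasure c)) :=
    Measure.isProbabilityMeasure_map hg.measurable.aemeasurable
  refine ext_of_forall_integral_eq_of_IsFiniteMeasure fun f => ?_
  rw [integral_map hg.measurable.aemeasurable f.continuous.aestronglyMeasurable,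
    integral_curve hc (F := fun x => f (g x)) (f.continuous.comp hg),
    integral_curve hc f.continuous]
  simp only [hinv]
  rw [← mean_rot (fun z => f (c z)) w]
  simp only [mul_comm]

/-- an invariant measure on an invariant set of points asymptotic to an invariant curve -/
theorem part [CompactSpace M] {g : M → M} (hg : Continuous g) {μ : Measure M} [IsFiniteMeasure μ]
    (hμ : MeasurePreserving g μ μ) {w : Circle} (hw : ∀ n : ℕ, 0 < n → w ^ n ≠ 1)
    {pr : M → Circle} (hpr : Continuous pr) {c : Circle → M} (hc : Continuous c)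
    (hit : ∀ n x, pr (g^[n] x) = w ^ n * pr x) {A : Set M} (hA : MeasurableSet A)
    (hgA : g ⁻¹' A = A)
    (hconv : ∀ x ∈ A, Tendsto (fun n => dist (g^[n] x) (c (w ^ n * pr x))) atTop (𝓝 0))
    {F : M → ℝ} (hF : Continuous F) :
    ∫ x in A, F x ∂μ = μ.real A * mean (fun z => F (c z)) := by
  set φ : M → ℝ := fun x => dist x (c (pr x)) with hφ
  have hφc : Continuous φ := continuous_id.dist (hc.comp hpr)
  obtain ⟨C, hC⟩ : ∃ C : ℝ, ∀ z, ‖φ z‖ ≤ C := by
    obtain ⟨C, hC⟩ := (isCompact_univ (X := M)).exists_bound_of_continuousOn hφc.continuousOn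
    exact ⟨C, fun z => hC z (Set.mem_univ z)⟩
  have hpre : ∀ n : ℕ, g^[n] ⁻¹' A = A := by
    intro n
    induction n with
    | zero => rfl
    | succ n ih => rw [Function.iterate_succ, Set.preimage_comp, ih, hgA]
  have hsame : ∀ n : ℕ, ∀ ψ : M → ℝ, Continuous ψ →
      ∫ x in A, ψ (g^[n] x) ∂μ = ∫ x in A, ψ x ∂μ := by
    intro n ψ hψ
    have h1 := hμ.iterate n
    have h2 := setIntegral_map (μ := μ) (g := g^[n]) (f := ψ) hA
      (by rw [h1.map_eq]; exact hψ.aestronglyMeasurable) h1.measurable.aemeasurable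
    rw [h1.map_eq, hpre] at h2
    exact h2.symm
  have hint : ∀ ψ : M → ℝ, Continuous ψ → Integrable ψ (μ.restrict A) := by
    intro ψ hψ
    obtain ⟨D, hD⟩ := (isCompact_univ (X := M)).exists_bound_of_continuousOn hψ.continuousOn
    exact Integrable.of_bound hψ.aestronglyMeasurable D
      (Eventually.of_forall fun x => hD x (Set.mem_univ x))
  have hzero : ∫ x in A, φ x ∂μ = 0 := by
    have h1 : Tendsto (fun n : ℕ => ∫ x in A, φ (g^[n] x) ∂μ) atTop (𝓝 (∫ _ in A, (0 : ℝ) ∂μ)) := by
      refine tendsto_integral_of_dominated_convergence (fun _ => C) (fun n => ?_)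
        (integrable_const _) (fun n => Eventually.of_forall fun x => hC _) ?_
      · exact (hφc.comp (hg.iterate n)).aestronglyMeasurable
      · refine ae_restrict_of_forall_mem hA fun x hx => ?_
        have h2 := hconv x hx
        simp only [hφ, hit]
        exact h2
    rw [integral_zero] at h1
    have h3 : Tendsto (fun _ : ℕ => ∫ x in A, φ x ∂μ) atTop (𝓝 0) :=
      h1.congr fun n => hsame n φ hφc
    exact tendsto_nhds_unique tendsto_const_nhds h3
  have hae : ∀ᵐ x ∂(μ.restrict A), x = c (pr x) := by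
    have h1 := (integral_eq_zero_iff_of_nonneg (fun x => dist_nonneg) (hint φ hφc)).mp hzero
    filter_upwards [h1] with x hx
    exact dist_eq_zero.mp hx
  have h1 : ∫ x in A, F x ∂μ = ∫ x in A, (fun z => F (c z)) (pr x) ∂μ := by
    refine integral_congr_ae ?_
    filter_upwards [hae] with x hx
    rw [← hx]
  rw [h1, integral_eq_mean (μ.restrict A) hpr hw ?_ (φ := fun z => F (c z)) (hF.comp hc)]
  · simp only [measureReal_restrict_apply MeasurableSet.univ, Set.univ_inter]
  · intro ψ hψ
    have h2 := hsame 1 (fun x => ψ (pr x)) (hψ.comp hpr)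
    rw [← h2]
    refine integral_congr_ae (Eventually.of_forall fun x => ?_)
    have h3 := hit 1 x
    rw [pow_one] at h3
    change ψ (w * pr x) = ψ (pr (g^[1] x))
    rw [h3]

variable {g : M → M} {w : Circle} {pr : M → Circle} {c₀ c₁ : Circle → M}

theorem Core.exists_combination [CompactSpace M] (h : Core g w pr c₀ c₁) (μ : Measure M)
    [IsProbabilityMeasure μ] (hμ : MeasurePreserving g μ μ) :
    ∃ t : ℝ≥0∞, t ≤ 1 ∧ μ = t • curveMeasure c₀ + (1 - t) • curveMeasure c₁ := by
  set A : Set M := ⋃ n : ℕ, {x | g^[n] x = c₁ (w ^ n * pr x)} with hAdef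
  have hA : MeasurableSet A := by
    refine MeasurableSet.iUnion fun n => IsClosed.measurableSet ?_
    exact isClosed_eq (h.cg.iterate n) (h.cc₁.comp (continuous_const.mul h.cpr))
  have hgA : g ⁻¹' A = A := by
    ext x
    rw [Set.mem_preimage, hAdef, Set.mem_iUnion, Set.mem_iUnion]
    constructor
    · rintro ⟨n, hn⟩
      refine ⟨n + 1, ?_⟩
      change g^[n] (g x) = c₁ (w ^ n * pr (g x)) at hn
      change g^[n + 1] x = c₁ (w ^ (n + 1) * pr x)
      rw [Function.iterate_succ_apply, hn, h.skew, pow_succ, mul_assoc]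
    · rintro ⟨n, hn⟩
      refine ⟨n, ?_⟩
      change g^[n] (g x) = c₁ (w ^ n * pr (g x))
      have h1 := h.stay (show g^[n] x = c₁ (w ^ n * pr x) from hn) (Nat.le_succ n)
      rw [Function.iterate_succ_apply] at h1
      rw [h1, h.skew, pow_succ, mul_assoc]
  have hgAc : g ⁻¹' Aᶜ = Aᶜ := by rw [Set.preimage_compl, hgA]
  have hc1 : ∀ x ∈ A, Tendsto (fun n => dist (g^[n] x) (c₁ (w ^ n * pr x))) atTop (𝓝 0) := by
    intro x hx
    obtain ⟨n, hn⟩ := Set.mem_iUnion.mp hx
    refine tendsto_const_nhds.congr' ?_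
    filter_upwards [eventually_ge_atTop n] with m hm
    rw [h.stay hn hm, dist_self]
  have hc0 : ∀ x ∈ Aᶜ, Tendsto (fun n => dist (g^[n] x) (c₀ (w ^ n * pr x))) atTop (𝓝 0) := by
    intro x hx
    rcases h.orbit x with h1 | h1
    · exfalso
      obtain ⟨n, hn⟩ := h1.exists
      exact hx (Set.mem_iUnion.mpr ⟨n, hn⟩)
    · exact h1
  have hp0 := prob_curve h.cc₀
  have hp1 := prob_curve h.cc₁
  have hle : μ Aᶜ ≤ 1 := prob_le_one
  refine ⟨μ Aᶜ, hle, ?_⟩
  have hsub : 1 - μ Aᶜ = μ A := by
    rw [← prob_compl_eq_one_sub hA.compl, compl_compl]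
  rw [hsub]
  have hf0 : IsFiniteMeasure (μ Aᶜ • curveMeasure c₀) :=
    Measure.smul_finite _ (measure_ne_top _ _)
  have hf1 : IsFiniteMeasure (μ A • curveMeasure c₁) :=
    Measure.smul_finite _ (measure_ne_top _ _)
  refine ext_of_forall_integral_eq_of_IsFiniteMeasure fun f => ?_
  have hint : ∀ (ν : Measure M) [IsFiniteMeasure ν], Integrable f ν := fun ν _ => f.integrable ν
  rw [← integral_add_compl hA (hint μ), part h.cg hμ h.irr h.cpr h.cc₁ h.pr_iter hA hgA hc1
    f.continuous, part h.cg hμ h.irr h.cpr h.cc₀ h.pr_iter hA.compl hgAc hc0 f.continuous,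
    integral_add_measure (hint _) (hint _), integral_smul_measure, integral_smul_measure,
    integral_curve h.cc₀ f.continuous, integral_curve h.cc₁ f.continuous, smul_eq_mul,
    smul_eq_mul, add_comm]
  rfl

theorem Core.measures [CompactSpace M] (h : Core g w pr c₀ c₁) (μ : Measure M)
    [IsProbabilityMeasure μ] : MeasurePreserving g μ μ ↔
      ∃ t : ℝ≥0∞, t ≤ 1 ∧ μ = t • curveMeasure c₀ + (1 - t) • curveMeasure c₁ := by
  refine ⟨h.exists_combination μ, ?_⟩
  rintro ⟨t, ht, rfl⟩
  refine ⟨h.cg.measurable, ?_⟩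
  rw [Measure.map_add _ _ h.cg.measurable, Measure.map_smul, Measure.map_smul,
    map_curve h.cg h.cc₀ h.inv₀, map_curve h.cg h.cc₁ h.inv₁]

end Vale.Agent.P103.H162
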