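import Vale.Agent.P103.H162.Dyn

/-!
# P103: the counterexamples with trivial dynamics
-/

namespace Vale.Agent.P103.H162

open Filter Topology CategoryTheory AlgebraicTopology
open scoped Manifold ContDiff

variable (P : Par)

/-- the map as a continuous map -/
noncomputable abbrev fC : C(Circle × (Sph ℂ × Sph P.V), Circle × (Sph ℂ × Sph P.V)) :=
  ⟨P.fM, P.fM_continuous⟩

theorem exists_eigenclass (k : ℕ) :
    ∃ x : ((singularHomologyFunctor (ModuleCat.{0} ℝ) 2).obj (ModuleCat.of ℝ ℝ)).obj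
      (TopCat.of (Circle × (Sph ℂ × Sph P.V))), x ≠ 0 ∧
      homologyMap 2 (H308.powC (fC P) k) x = (2 : ℝ) ^ k • x := by
  obtain ⟨x, hx⟩ := P.hasEigenvalue_two.exists_hasEigenvector
  exact ⟨x, hx.2, H308.homologyMap_powC _ 2 x (Module.End.mem_eigenspace_iff.mp hx.1) k⟩

theorem counterexample {k : ℕ} (hk : 1 ≤ k) :
    Counterexample ((𝓡 1).prod ((𝓡 2).prod (𝓡 (2 * P.p)))) (H308.powC (fC P) k)
      ((2 : ℝ) ^ k) := by
  obtain ⟨x, hx0, hx⟩ := exists_eigenclass P k
  refine ⟨H308.contMDiff_iter P.fM_contMDiff k, ((core_fM P).pow hk).entropy,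
    ⟨_, _, _, _, ((pre_fM P).pow hk).twoCircles⟩, ?_, ?_⟩
  · exact Module.End.hasEigenvalue_of_hasEigenvector
      ⟨Module.End.mem_eigenspace_iff.mpr hx, hx0⟩
  · exact le_rho_of_eigenclass _ 2 (2 ^ k) x hx0 hx (by positivity)

/-- the product of a map with a constant map -/
def timesConst {M N : Type} [TopologicalSpace M] [TopologicalSpace N] (f : C(M, M)) (y₀ : N) :
    C(M × N, M × N) :=
  ⟨fun z => (f z.1, y₀), (f.continuous.comp continuous_fst).prodMk continuous_const⟩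

theorem homologyMap_timesConst {M N : Type} [TopologicalSpace M] [TopologicalSpace N]
    (f : C(M, M)) (y₀ : N) (i : ℕ) {l : ℝ}
    (x : ((singularHomologyFunctor (ModuleCat.{0} ℝ) i).obj (ModuleCat.of ℝ ℝ)).obj
      (TopCat.of M)) (hx0 : x ≠ 0) (hx : homologyMap i f x = l • x) :
    ∃ y : ((singularHomologyFunctor (ModuleCat.{0} ℝ) i).obj (ModuleCat.of ℝ ℝ)).obj
      (TopCat.of (M × N)), y ≠ 0 ∧ homologyMap i (timesConst f y₀) y = l • y := by
  let j : C(M, M × N) := ⟨fun m => (m, y₀), by fun_prop⟩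
  let p : C(M × N, M) := ⟨Prod.fst, continuous_fst⟩
  have hpj : p.comp j = ContinuousMap.id M := rfl
  have hgj : (timesConst f y₀).comp j = j.comp f := rfl
  refine ⟨Hm.hm i j x, ?_, ?_⟩
  · intro h0
    apply hx0
    have := congrArg (Hm.hm i p) h0
    rwa [← Hm.hm_comp, hpj, Hm.hm_id, map_zero] at this
  · change Hm.hm i (timesConst f y₀) (Hm.hm i j x) = _
    rw [← Hm.hm_comp, hgj, Hm.hm_comp, ← map_smul]
    exact congrArg (Hm.hm i j) hx

theorem counterexample_prod {E' : Type} [NormedAddCommGroup E'] [NormedSpace ℝ E'] {H' : Type}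
    [TopologicalSpace H'] {I' : ModelWithCorners ℝ E' H'} {N : Type} [MetricSpace N]
    [ChartedSpace H' N] [CompactSpace N] (y₀ : N) {k : ℕ} (hk : 1 ≤ k) :
    Counterexample (((𝓡 1).prod ((𝓡 2).prod (𝓡 (2 * P.p)))).prod I')
      (timesConst (H308.powC (fC P) k) y₀) ((2 : ℝ) ^ k) := by
  obtain ⟨x, hx0, hx⟩ := exists_eigenclass P k
  obtain ⟨y, hy0, hy⟩ := homologyMap_timesConst (H308.powC (fC P) k) y₀ 2 x hx0 hx
  refine ⟨((H308.contMDiff_iter P.fM_contMDiff k).comp contMDiff_fst).prodMk contMDiff_const,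
    (((core_fM P).pow hk).prodConst y₀).entropy,
    ⟨_, _, _, _, (((pre_fM P).pow hk).prodConst y₀).twoCircles⟩, ?_, ?_⟩
  · exact Module.End.hasEigenvalue_of_hasEigenvector
      ⟨Module.End.mem_eigenspace_iff.mpr hy, hy0⟩
  · exact le_rho_of_eigenclass _ 2 (2 ^ k) y hy0 hy (by positivity)

end Vale.Agent.P103.H162
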