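import Vale.Agent.P103.H162.Core
import Mathlib.MeasureTheory.Measure.HasOuterApproxClosed
import Mathlib.MeasureTheory.Integral.IntervalIntegral.Periodic
import Mathlib.MeasureTheory.Integral.Prod
import Mathlib.MeasureTheory.Integral.DominatedConvergence
import Mathlib.Topology.Instances.AddCircle.DenseSubgroup
import Mathlib.Topology.Algebra.Group.SubmonoidClosure

/-!
# P103: the invariant measures
-/

namespace Vale.Agent.P103.H162

open MeasureTheory Filter Topology
open scoped ENNReal BoundedContinuousFunction

/-! ### rotations of the circle -/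

theorem dense_pow {w : Circle} (hw : ∀ n : ℕ, 0 < n → w ^ n ≠ 1) :
    DenseRange (fun n : ℕ => w ^ n) := by
  rw [← denseRange_zpow_iff_pow]
  set a : AddCircle (1 : ℝ) := ((Complex.arg w / (2 * Real.pi) : ℝ) : AddCircle (1 : ℝ)) with ha
  have hac : AddCircle.toCircle a = w := by
    rw [ha, AddCircle.toCircle_apply_mk, div_one, mul_div_cancel₀ _ Real.two_pi_pos.ne',
      Circle.exp_arg]
  have ho : addOrderOf a = 0 := by
    by_contra h0
    have hpos : 0 < addOrderOf a := Nat.pos_of_ne_zero h0
    apply hw _ hpos
    rw [← hac, ← AddCircle.toCircle_nsmul, addOrderOf_nsmul_eq_zero, AddCircle.toCircle_zero]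
  have hd : DenseRange (fun n : ℤ => n • a) := AddCircle.denseRange_zsmul_iff.mpr ho
  have hs : Function.Surjective (AddCircle.toCircle (T := (1 : ℝ))) := by
    intro z
    obtain ⟨y, hy⟩ := (AddCircle.homeomorphCircle (T := (1 : ℝ)) one_ne_zero).surjective z
    exact ⟨y, by rw [← hy, AddCircle.homeomorphCircle_apply]⟩
  have h1 := hs.denseRange.comp hd AddCircle.continuous_toCircle
  have h2 : (AddCircle.toCircle ∘ fun n : ℤ => n • a) = fun n : ℤ => w ^ n := by
    funext n
    rw [Function.comp_apply, AddCircle.toCircle_zsmul, hac]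
  rw [h2] at h1
  exact h1

/-- the mean value of a function on the circle -/
noncomputable def mean (φ : Circle → ℝ) : ℝ :=
  ∫ s in Set.Ico (0 : ℝ) 1, φ (Circle.exp (2 * Real.pi * s))

theorem mean_rot (φ : Circle → ℝ) (a : Circle) :
    mean (fun z => φ (z * a)) = mean φ := by
  have hper : Function.Periodic (fun s : ℝ => φ (Circle.exp (2 * Real.pi * s))) 1 := by
    intro s
    change φ _ = φ _
    rw [mul_add, mul_one, Circle.exp_add_two_pi]
  obtain ⟨α, rfl⟩ := Circle.exp_surjective a
  unfold mean
  rw [integral_Ico_eq_integral_Ioc, integral_Ico_eq_integral_Ioc,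
    ← intervalIntegral.integral_of_le zero_le_one, ← intervalIntegral.integral_of_le zero_le_one]
  have h1 : ∀ s : ℝ, Circle.exp (2 * Real.pi * s) * Circle.exp α =
      Circle.exp (2 * Real.pi * (s + α / (2 * Real.pi))) := by
    intro s
    rw [← Circle.exp_add]
    congr 1
    field_simp
  simp only [h1]
  rw [intervalIntegral.integral_comp_add_right
    (fun s : ℝ => φ (Circle.exp (2 * Real.pi * s))) (α / (2 * Real.pi))]
  have h2 := hper.intervalIntegral_add_eq (0 + α / (2 * Real.pi)) 0
  rw [zero_add] at h2
  rw [zero_add, add_comm 1, h2, zero_add]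

/-- the mean against the law of `p`, for a law invariant under an irrational rotation -/
theorem integral_eq_mean {Ω : Type} [TopologicalSpace Ω] [MeasurableSpace Ω]
    [OpensMeasurableSpace Ω] [SecondCountableTopology Ω] (ν : Measure Ω) [IsFiniteMeasure ν]
    {p : Ω → Circle} (hp : Continuous p) {w : Circle} (hw : ∀ n : ℕ, 0 < n → w ^ n ≠ 1)
    (hinv : ∀ φ : Circle → ℝ, Continuous φ → ∫ x, φ (w * p x) ∂ν = ∫ x, φ (p x) ∂ν)
    {φ : Circle → ℝ} (hφ : Continuous φ) : ∫ x, φ (p x) ∂ν = ν.real Set.univ * mean φ := by
  obtain ⟨C, hC⟩ : ∃ C : ℝ, ∀ z, ‖φ z‖ ≤ C := by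
    obtain ⟨C, hC⟩ := (isCompact_univ (X := Circle)).exists_bound_of_continuousOn
      hφ.continuousOn
    exact ⟨C, fun z => hC z (Set.mem_univ z)⟩
  set J : Circle → ℝ := fun a => ∫ x, φ (a * p x) ∂ν with hJ
  have hJc : Continuous J := by
    refine continuous_of_dominated (bound := fun _ => C) (fun a => ?_) (fun a => ?_) ?_ ?_
    · exact (hφ.comp (continuous_const.mul hp)).aestronglyMeasurable
    · exact Eventually.of_forall fun x => hC _
    · exact integrable_const _
    · exact Eventually.of_forall fun x => hφ.comp (continuous_id.mul continuous_const)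
  have hpow : ∀ n : ℕ, J (w ^ n) = J 1 := by
    intro n
    induction n with
    | zero => rw [pow_zero]
    | succ n ih =>
      rw [← ih]
      have h1 := hinv (fun z => φ (w ^ n * z)) (hφ.comp (continuous_const.mul continuous_id))
      simp only [hJ]
      rw [← h1]
      simp only [pow_succ, mul_assoc]
  have hconst : ∀ a, J a = J 1 := by
    have := (dense_pow hw).equalizer hJc (continuous_const (y := J 1))
      (funext fun n => hpow n)
    intro a
    exact congrFun this a
  have hJ1 : J 1 = ∫ x, φ (p x) ∂ν := by simp only [hJ, one_mul]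
  -- average over all rotations
  have h1 : ∫ s in Set.Ico (0 : ℝ) 1, J (Circle.exp (2 * Real.pi * s)) = J 1 := by
    simp only [hconst]
    rw [setIntegral_const]
    simp
  rw [← hJ1, ← h1]
  simp only [hJ]
  rw [integral_integral_swap]
  · have h2 : ∀ x, ∫ s in Set.Ico (0 : ℝ) 1, φ (Circle.exp (2 * Real.pi * s) * p x) = mean φ :=
      fun x => mean_rot φ (p x)
    simp only [h2]
    rw [integral_const, smul_eq_mul]
  · refine Integrable.of_bound (C := C) ?_ ?_
    · apply Continuous.aestronglyMeasurable
      apply hφ.comp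
      exact ((Circle.exp.continuous.comp (continuous_const.mul continuous_fst)).mul
        (hp.comp continuous_snd))
    · exact Eventually.of_forall fun x => hC _

end Vale.Agent.P103.H162
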